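import Mathlib.RingTheory.MvPolynomial.Basic
import Mathlib.Algebra.MvPolynomial.Division
import Mathlib.Algebra.MvPolynomial.CommRing
import Mathlib.Algebra.MvPolynomial.PDeriv
import Mathlib.Algebra.Field.Basic
import Mathlib.Data.Fintype.Sum
import Mathlib.Tactic.Ring
import Mathlib.Tactic.LinearCombination
import Mathlib.Tactic.FinCases
import Mathlib.Tactic.Abel
import Mathlib.Tactic.Module

/-!
P195: symbols in two pairs of variables. The bigraded pieces of the product of two binary Koszul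
complexes are exact, in both orientations of the middle square.
-/

namespace Vale.Agent.P195.Orbit.Binary

open MvPolynomial

/-- The four symbol variables: first pair left, second pair right. -/
abbrev V : Type := Fin 2 ⊕ Fin 2

variable {k : Type} [Field k]

/-- Exponents of bidegree `(a, b)` for the pairs `0, 1` and `2, 3`. -/
def bideg (a b : ℤ) : Set (V →₀ ℕ) :=
  {m | ((m (.inl 0) : ℤ) + m (.inl 1) = a) ∧ ((m (.inr 0) : ℤ) + m (.inr 1) = b)}

/-- Symbols of bidegree `(a, b)`. -/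
noncomputable def R (a b : ℤ) : Submodule k (MvPolynomial V k) :=
  restrictSupport k (bideg a b)

theorem mem_R {a b : ℤ} {f : MvPolynomial V k} :
    f ∈ R a b ↔ ∀ m, coeff m f ≠ 0 → ((m (.inl 0) : ℤ) + m (.inl 1) = a) ∧ ((m (.inr 0) : ℤ) + m (.inr 1) = b) := by
  rw [R, mem_restrictSupport_iff]
  constructor
  · intro h m hm
    exact h (MvPolynomial.mem_support_iff.2 hm)
  · intro h m hm
    exact h m (MvPolynomial.mem_support_iff.1 hm)

theorem eq_zero_of_neg {a b : ℤ} {f : MvPolynomial V k} (hf : f ∈ R a b)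
    (h : a < 0 ∨ b < 0) : f = 0 := by
  ext m
  by_contra hm
  have := mem_R.1 hf m (by simpa using hm)
  omega

/-- Bidegree of a variable. -/
def da : V → ℤ := Sum.elim (fun _ => 1) fun _ => 0

/-- Second degree of a variable. -/
def db : V → ℤ := Sum.elim (fun _ => 0) fun _ => 1

theorem single_deg (i : V) (m : V →₀ ℕ) :
    (((Finsupp.single i 1 + m : V →₀ ℕ) (.inl 0) : ℕ) : ℤ) + ((Finsupp.single i 1 + m : V →₀ ℕ) (.inl 1) : ℕ) =
        (m (.inl 0) : ℤ) + m (.inl 1) + da i ∧
      (((Finsupp.single i 1 + m : V →₀ ℕ) (.inr 0) : ℕ) : ℤ) + ((Finsupp.single i 1 + m : V →₀ ℕ) (.inr 1) : ℕ) =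
        (m (.inr 0) : ℤ) + m (.inr 1) + db i := by
  rcases i with i | i <;> fin_cases i <;> simp [da, db] <;> ring

theorem X_mul_mem {i : V} {a b : ℤ} {f : MvPolynomial V k}
    (hf : f ∈ R (a - da i) (b - db i)) : X i * f ∈ R a b := by
  classical
  refine mem_R.2 fun m hm => ?_
  rw [coeff_X_mul'] at hm
  by_cases h : i ∈ m.support
  · rw [if_pos h] at hm
    have he : Finsupp.single i 1 + (m - Finsupp.single i 1) = m :=
      add_tsub_cancel_of_le (Finsupp.single_le_iff.2
        (Nat.one_le_iff_ne_zero.2 (Finsupp.mem_support_iff.1 h)))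
    obtain ⟨h1, h2⟩ := mem_R.1 hf _ hm
    have := single_deg i (m - Finsupp.single i 1)
    rw [he] at this
    omega
  · rw [if_neg h] at hm
    exact absurd rfl hm

theorem mem_of_X_mul {i : V} {a b : ℤ} {f : MvPolynomial V k}
    (hf : X i * f ∈ R a b) : f ∈ R (a - da i) (b - db i) := by
  refine mem_R.2 fun m hm => ?_
  obtain ⟨h1, h2⟩ := mem_R.1 hf (Finsupp.single i 1 + m) (by rwa [coeff_X_mul])
  have := single_deg i m
  omega

/-- A pair of variables: `0, 1` or `2, 3`. -/
structure IsPair (p q : V) : Prop where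
  ne : p ≠ q
  da_eq : da q = da p
  db_eq : db q = db p

theorem pair_x : IsPair (.inl 0) (.inl 1) := ⟨by decide, rfl, rfl⟩

theorem pair_y : IsPair (.inr 0) (.inr 1) := ⟨by decide, rfl, rfl⟩

theorem mid {p q : V} (h : IsPair p q) {a b : ℤ} {u w : MvPolynomial V k}
    (hu : u ∈ R a b) (huw : X p * u + X q * w = 0) :
    ∃ v, v ∈ R (a - da q) (b - db q) ∧ u = X q * v ∧ w = -(X p * v) := by
  have hd : (X q : MvPolynomial V k) ∣ X p * u :=
    ⟨-w, by linear_combination huw⟩
  obtain ⟨v, rfl⟩ := ((X_prime (i := q)).dvd_or_dvd hd).resolve_left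
    (fun hh => h.ne (X_dvd_X.1 hh).symm)
  refine ⟨v, mem_of_X_mul hu, rfl, ?_⟩
  apply mul_left_cancel₀ (X_ne_zero (R := k) q)
  linear_combination huw

theorem split_x {a b : ℤ} (ha : 1 ≤ a) {f : MvPolynomial V k} (hf : f ∈ R a b) :
    ∃ u w, u ∈ R (a - 1) b ∧ w ∈ R (a - 1) b ∧ f = X (.inl 0) * u + X (.inl 1) * w := by
  classical
  set g := f.modMonomial (Finsupp.single (.inl 0) 1) with hg
  have e : f = X (.inl 0) * (f.divMonomial (Finsupp.single (.inl 0) 1)) + g :=
    (divMonomial_add_modMonomial_single f (.inl 0)).symm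
  have hgm : g ∈ R a b := by
    refine mem_R.2 fun m hm => ?_
    by_cases hle : Finsupp.single ((.inl 0) : V) 1 ≤ m
    · exact absurd (coeff_modMonomial_of_le f hle) hm
    · rw [hg, coeff_modMonomial_of_not_le f hle] at hm
      exact mem_R.1 hf m hm
  have hd : (X (.inl 1) : MvPolynomial V k) ∣ g := by
    rw [X_dvd_iff_modMonomial_eq_zero]
    ext m
    rw [coeff_zero]
    by_cases hle : Finsupp.single ((.inl 1) : V) 1 ≤ m
    · exact coeff_modMonomial_of_le _ hle
    · rw [coeff_modMonomial_of_not_le _ hle]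
      by_contra hm
      have h0 : m (.inl 0) = 0 := by
        by_contra h0
        exact hm (coeff_modMonomial_of_le f (Finsupp.single_le_iff.2 (Nat.one_le_iff_ne_zero.2 h0)))
      have h1 : m (.inl 1) = 0 := by
        by_contra h1
        exact hle (Finsupp.single_le_iff.2 (Nat.one_le_iff_ne_zero.2 h1))
      have := (mem_R.1 hgm m hm).1
      omega
  obtain ⟨w, hw⟩ := hd
  have hu : X (.inl 0) * (f.divMonomial (Finsupp.single (.inl 0) 1)) ∈ R a b := by
    rw [eq_sub_of_add_eq e.symm]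
    exact sub_mem hf hgm
  refine ⟨_, w, ?_, ?_, e.trans (by rw [hw])⟩
  · simpa [da, db] using mem_of_X_mul hu
  · simpa [da, db] using mem_of_X_mul (i := .inl 1) (hw ▸ hgm)

theorem split_y {a b : ℤ} (hb : 1 ≤ b) {f : MvPolynomial V k} (hf : f ∈ R a b) :
    ∃ u w, u ∈ R a (b - 1) ∧ w ∈ R a (b - 1) ∧ f = X (.inr 0) * u + X (.inr 1) * w := by
  classical
  set g := f.modMonomial (Finsupp.single (.inr 0) 1) with hg
  have e : f = X (.inr 0) * (f.divMonomial (Finsupp.single (.inr 0) 1)) + g :=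
    (divMonomial_add_modMonomial_single f (.inr 0)).symm
  have hgm : g ∈ R a b := by
    refine mem_R.2 fun m hm => ?_
    by_cases hle : Finsupp.single ((.inr 0) : V) 1 ≤ m
    · exact absurd (coeff_modMonomial_of_le f hle) hm
    · rw [hg, coeff_modMonomial_of_not_le f hle] at hm
      exact mem_R.1 hf m hm
  have hd : (X (.inr 1) : MvPolynomial V k) ∣ g := by
    rw [X_dvd_iff_modMonomial_eq_zero]
    ext m
    rw [coeff_zero]
    by_cases hle : Finsupp.single ((.inr 1) : V) 1 ≤ m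
    · exact coeff_modMonomial_of_le _ hle
    · rw [coeff_modMonomial_of_not_le _ hle]
      by_contra hm
      have h0 : m (.inr 0) = 0 := by
        by_contra h0
        exact hm (coeff_modMonomial_of_le f (Finsupp.single_le_iff.2 (Nat.one_le_iff_ne_zero.2 h0)))
      have h1 : m (.inr 1) = 0 := by
        by_contra h1
        exact hle (Finsupp.single_le_iff.2 (Nat.one_le_iff_ne_zero.2 h1))
      have := (mem_R.1 hgm m hm).2
      omega
  obtain ⟨w, hw⟩ := hd
  have hu : X (.inr 0) * (f.divMonomial (Finsupp.single (.inr 0) 1)) ∈ R a b := by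
    rw [eq_sub_of_add_eq e.symm]
    exact sub_mem hf hgm
  refine ⟨_, w, ?_, ?_, e.trans (by rw [hw])⟩
  · simpa [da, db] using mem_of_X_mul hu
  · simpa [da, db] using mem_of_X_mul (i := .inr 1) (hw ▸ hgm)

/-- The variable of the first pair. -/
noncomputable abbrev x (i : Fin 2) : MvPolynomial V k := ![X (.inl 0), X (.inl 1)] i

/-- The variable of the second pair. -/
noncomputable abbrev y (i : Fin 2) : MvPolynomial V k := ![X (.inr 0), X (.inr 1)] i

/-- Contraction with the first pair. -/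
noncomputable def cx (u : Fin 2 → MvPolynomial V k) : MvPolynomial V k :=
  X (.inl 0) * u 0 + X (.inl 1) * u 1

/-- Contraction with the second pair. -/
noncomputable def cy (u : Fin 2 → MvPolynomial V k) : MvPolynomial V k :=
  X (.inr 0) * u 0 + X (.inr 1) * u 1

/-- Syzygy of the first pair. -/
noncomputable def sx (v : MvPolynomial V k) : Fin 2 → MvPolynomial V k :=
  ![X (.inl 1) * v, -(X (.inl 0) * v)]

/-- Syzygy of the second pair. -/
noncomputable def sy (v : MvPolynomial V k) : Fin 2 → MvPolynomial V k :=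
  ![X (.inr 1) * v, -(X (.inr 0) * v)]

theorem ker_cx {a b : ℤ} {u : Fin 2 → MvPolynomial V k} (hu : ∀ i, u i ∈ R a b)
    (h : cx u = 0) : ∃ v, v ∈ R (a - 1) b ∧ u = sx v := by
  obtain ⟨v, hv, h0, h1⟩ := mid pair_x (hu 0) h
  refine ⟨v, by simpa [da, db] using hv, funext fun i => ?_⟩
  fin_cases i <;> simp [sx, h0, h1]

theorem ker_cy {a b : ℤ} {u : Fin 2 → MvPolynomial V k} (hu : ∀ i, u i ∈ R a b)
    (h : cy u = 0) : ∃ v, v ∈ R a (b - 1) ∧ u = sy v := by
  obtain ⟨v, hv, h0, h1⟩ := mid pair_y (hu 0) h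
  refine ⟨v, by simpa [da, db] using hv, funext fun i => ?_⟩
  fin_cases i <;> simp [sy, h0, h1]

theorem cx_sx (v : MvPolynomial V k) : cx (sx v) = 0 := by simp [cx, sx]; ring

theorem cy_sy (v : MvPolynomial V k) : cy (sy v) = 0 := by simp [cy, sy]; ring

theorem x_mul_mem {a b : ℤ} (i : Fin 2) {f : MvPolynomial V k} (hf : f ∈ R (a - 1) b) :
    x i * f ∈ R a b := by
  fin_cases i <;> exact X_mul_mem (by simpa [da, db] using hf)

theorem y_mul_mem {a b : ℤ} (i : Fin 2) {f : MvPolynomial V k} (hf : f ∈ R a (b - 1)) :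
    y i * f ∈ R a b := by
  fin_cases i <;> exact X_mul_mem (by simpa [da, db] using hf)

theorem sx_mem {a b : ℤ} (i : Fin 2) {v : MvPolynomial V k} (hv : v ∈ R (a - 1) b) :
    sx v i ∈ R a b := by
  fin_cases i
  · simpa [sx] using x_mul_mem 1 hv
  · simpa [sx] using neg_mem (x_mul_mem 0 hv)

theorem sy_mem {a b : ℤ} (i : Fin 2) {v : MvPolynomial V k} (hv : v ∈ R a (b - 1)) :
    sy v i ∈ R a b := by
  fin_cases i
  · simpa [sy] using y_mul_mem 1 hv
  · simpa [sy] using neg_mem (y_mul_mem 0 hv)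

theorem sx_eq_zero {v : MvPolynomial V k} (h : sx v = 0) : v = 0 :=
  mul_left_cancel₀ (X_ne_zero (R := k) ((.inl 1) : V))
    (by simpa [sx] using congrFun h 0)

theorem sy_eq_zero {v : MvPolynomial V k} (h : sy v = 0) : v = 0 :=
  mul_left_cancel₀ (X_ne_zero (R := k) ((.inr 1) : V))
    (by simpa [sy] using congrFun h 0)

/-! First orientation: `v ↦ (p, r)`, `(p, r) ↦ m`, `m ↦ ∑ x i * y l * m i l`. -/

/-- Kernel of the last map. -/
theorem top_exact {a b : ℤ} (hb : 0 ≤ b) {m : Fin 2 → Fin 2 → MvPolynomial V k}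
    (hm : ∀ i l, m i l ∈ R a b) (h : cx (fun i => cy (m i)) = 0) :
    ∃ p r : Fin 2 → MvPolynomial V k, (∀ i, p i ∈ R a (b - 1)) ∧
      (∀ l, r l ∈ R (a - 1) b) ∧ ∀ i l, m i l = sy (p i) l + sx (r l) i := by
  have hn : ∀ i, cy (m i) ∈ R a (b + 1) := fun i =>
    add_mem (y_mul_mem 0 (by simpa using hm i 0)) (y_mul_mem 1 (by simpa using hm i 1))
  obtain ⟨u, hu, hun⟩ := ker_cx hn h
  obtain ⟨c, d, hc, hd, rfl⟩ := split_y (by omega) hu
  rw [add_sub_cancel_right] at hc hd
  have hcd : ∀ l, ![c, d] l ∈ R (a - 1) b := fun l => by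
    fin_cases l <;> simpa using by assumption
  have hz : ∀ i, cy (fun l => m i l - sx (![c, d] l) i) = 0 := fun i => by
    have := congrFun hun i
    fin_cases i <;> simp [cy, sx] at this ⊢ <;> linear_combination this
  choose p hp hpe using fun i => ker_cy (fun l => sub_mem (hm i l) (sx_mem i (hcd l))) (hz i)
  refine ⟨p, ![c, d], hp, hcd, fun i l => ?_⟩
  rw [← congrFun (hpe i) l]
  ring

/-- Kernel of the middle map. -/
theorem mid_exact {a b : ℤ} {p r : Fin 2 → MvPolynomial V k}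
    (hp : ∀ i, p i ∈ R a (b - 1))
    (h : ∀ i l, sy (p i) l + sx (r l) i = 0) :
    ∃ v, v ∈ R (a - 1) (b - 1) ∧ p = sx v ∧ r = -sy v := by
  have h00 := h 0 0
  have h10 := h 1 0
  have h01 := h 0 1
  simp [sx, sy] at h00 h10 h01
  have hc : cx p = 0 := by
    apply mul_left_cancel₀ (X_ne_zero (R := k) ((.inr 1) : V))
    rw [cx, mul_zero]
    linear_combination (X (.inl 0)) * h00 + (X (.inl 1)) * h10
  obtain ⟨v, hv, rfl⟩ := ker_cx hp hc
  simp [sx] at h00 h01
  refine ⟨v, hv, rfl, funext fun l => ?_⟩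
  apply mul_left_cancel₀ (X_ne_zero (R := k) ((.inl 1) : V))
  fin_cases l
  · simp only [sy, Pi.neg_apply, Fin.zero_eta, Matrix.cons_val_zero]
    linear_combination h00
  · simp only [sy, Pi.neg_apply, Fin.mk_one, Matrix.cons_val_one, Matrix.cons_val_zero]
    linear_combination h01

/-- Injectivity of the first map. -/
theorem bot_exact {v : MvPolynomial V k} (h : sx v = 0) : v = 0 := sx_eq_zero h

/-! Second orientation: `v ↦ sx ⊗ sy`, `m ↦ (cy on rows, cx on columns)`,
`(p, r) ↦ cx p - cy r`. -/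

/-- Kernel of the first map. -/
theorem dual_bot {v : MvPolynomial V k} (h : ∀ i, sy (sx v i) = 0) : v = 0 :=
  sx_eq_zero (funext fun i => sy_eq_zero (h i))

/-- Kernel of the middle map. -/
theorem dual_mid {a b : ℤ} {m : Fin 2 → Fin 2 → MvPolynomial V k}
    (hm : ∀ i l, m i l ∈ R a b) (hy : ∀ i, cy (m i) = 0)
    (hx : ∀ l, cx (fun i => m i l) = 0) :
    ∃ v, v ∈ R (a - 1) (b - 1) ∧ ∀ i l, m i l = sy (sx v i) l := by
  choose n hn hne using fun i => ker_cy (hm i) (hy i)
  have hc : cx n = 0 := by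
    apply mul_left_cancel₀ (X_ne_zero (R := k) ((.inr 1) : V))
    have := hx 0
    simp [cx, hne, sy] at this
    rw [cx, mul_zero]
    linear_combination this
  obtain ⟨v, hv, rfl⟩ := ker_cx hn hc
  exact ⟨v, hv, fun i l => congrFun (hne i) l⟩

/-- Kernel of the last map. -/
theorem dual_top {a b : ℤ} (ha : 1 ≤ a) (hb : 1 ≤ b) {p r : Fin 2 → MvPolynomial V k}
    (hp : ∀ i, p i ∈ R (a - 1) b) (hr : ∀ l, r l ∈ R a (b - 1)) (h : cx p - cy r = 0) :
    ∃ m : Fin 2 → Fin 2 → MvPolynomial V k, (∀ i l, m i l ∈ R (a - 1) (b - 1)) ∧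
      p = (fun i => cy (m i)) ∧ r = fun l => cx (fun i => m i l) := by
  obtain ⟨c, d, hc, hd, hp0⟩ := split_y hb (hp 0)
  obtain ⟨e, f, he, hf, hp1⟩ := split_y hb (hp 1)
  set m : Fin 2 → Fin 2 → MvPolynomial V k := ![![c, d], ![e, f]] with hmdef
  have hm : ∀ i l, m i l ∈ R (a - 1) (b - 1) := fun i l => by
    fin_cases i <;> fin_cases l <;> simpa [hmdef] using by assumption
  have hd0 : cy (fun l => cx (fun i => m i l) - r l) = 0 := by
    simp [cx, cy, hmdef, hp0, hp1] at h ⊢
    linear_combination h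
  have hcm : ∀ l, cx (fun i => m i l) ∈ R a (b - 1) := fun l =>
    add_mem (x_mul_mem 0 (hm 0 l)) (x_mul_mem 1 (hm 1 l))
  obtain ⟨z, hz, hze⟩ := ker_cy (fun l => sub_mem (hcm l) (hr l)) hd0
  obtain ⟨z0, z1, hz0, hz1, rfl⟩ := split_x ha hz
  have hzz : ∀ i, ![z0, z1] i ∈ R (a - 1) (b - 1 - 1) := fun i => by
    fin_cases i <;> simpa using by assumption
  refine ⟨fun i l => m i l - sy (![z0, z1] i) l,
    fun i l => sub_mem (hm i l) (sy_mem l (hzz i)), funext fun i => ?_, funext fun l => ?_⟩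
  · fin_cases i <;> simp [cy, sy, hmdef, hp0, hp1] <;> ring
  · have := congrFun hze l
    fin_cases l <;> simp [cx, sy, hmdef] at this ⊢ <;> linear_combination -this

/-- Surjectivity of the last map. -/
theorem dual_onto {a b : ℤ} (ha : 1 ≤ a) {f : MvPolynomial V k} (hf : f ∈ R a b) :
    ∃ p : Fin 2 → MvPolynomial V k, (∀ i, p i ∈ R (a - 1) b) ∧ cx p = f := by
  obtain ⟨u, w, hu, hw, rfl⟩ := split_x ha hf
  exact ⟨![u, w], fun i => by fin_cases i <;> simpa using by assumption, by simp [cx]⟩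

/-- Surjectivity of the last map of the first orientation. -/
theorem top_onto {a b : ℤ} (ha : 1 ≤ a) (hb : 1 ≤ b) {f : MvPolynomial V k}
    (hf : f ∈ R a b) : ∃ m : Fin 2 → Fin 2 → MvPolynomial V k,
      (∀ i l, m i l ∈ R (a - 1) (b - 1)) ∧ cx (fun i => cy (m i)) = f := by
  obtain ⟨p, hp, rfl⟩ := dual_onto ha hf
  obtain ⟨c, d, hc, hd, hp0⟩ := split_y hb (hp 0)
  obtain ⟨e, g, he, hg, hp1⟩ := split_y hb (hp 1)
  refine ⟨![![c, d], ![e, g]], fun i l => ?_, ?_⟩
  · fin_cases i <;> fin_cases l <;> simpa using by assumption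
  · simp [cx, cy, hp0, hp1]

end Vale.Agent.P195.Orbit.Binary
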