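import Vale.Agent.P195.Orbit.Resolved

/-!
P195: resolutions of length three, chain maps between them and exactness of cochains, from exact
sequences of linear maps.
-/

noncomputable section

namespace Vale.Agent.P195.Orbit

open CategoryTheory Abelian

universe u

variable {A : Type u} [Ring A] {M N X : ModuleCat.{u} A}

/-- An exact sequence `0 → Q₃ → Q₂ → Q₁ → Q₀ → M → 0` of linear maps, with projective terms. -/
structure Seq (M : ModuleCat.{u} A) where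
  Q₀ : ModuleCat.{u} A
  Q₁ : ModuleCat.{u} A
  Q₂ : ModuleCat.{u} A
  Q₃ : ModuleCat.{u} A
  proj₀ : Module.Projective A Q₀
  proj₁ : Module.Projective A Q₁
  proj₂ : Module.Projective A Q₂
  proj₃ : Module.Projective A Q₃
  d₀ : Q₀ →ₗ[A] M
  d₁ : Q₁ →ₗ[A] Q₀
  d₂ : Q₂ →ₗ[A] Q₁
  d₃ : Q₃ →ₗ[A] Q₂
  surj : Function.Surjective d₀
  ex₀ : LinearMap.range d₁ = LinearMap.ker d₀
  ex₁ : LinearMap.range d₂ = LinearMap.ker d₁
  ex₂ : LinearMap.range d₃ = LinearMap.ker d₂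
  inj : Function.Injective d₃

namespace Seq

variable (S : Seq M)

/-- The first kernel, mapping onto from degree one. -/
def onto₁ : S.Q₁ →ₗ[A] LinearMap.ker S.d₀ :=
  S.d₁.codRestrict _ fun x => S.ex₀.le (LinearMap.mem_range_self S.d₁ x)

/-- The second kernel, mapping onto from degree two. -/
def onto₂ : S.Q₂ →ₗ[A] LinearMap.ker S.d₁ :=
  S.d₂.codRestrict _ fun x => S.ex₁.le (LinearMap.mem_range_self S.d₂ x)

/-- The resolution of an exact sequence, cut at its kernels. -/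
def res : Res3 M where
  S₁ := ShortComplex.mk (ModuleCat.ofHom (LinearMap.ker S.d₀).subtype) (ModuleCat.ofHom S.d₀)
    (ModuleCat.hom_ext (LinearMap.ext fun x => x.2))
  S₂ := ShortComplex.mk (ModuleCat.ofHom (LinearMap.ker S.d₁).subtype) (ModuleCat.ofHom S.onto₁)
    (ModuleCat.hom_ext (LinearMap.ext fun x => Subtype.ext x.2))
  S₃ := ShortComplex.mk (ModuleCat.ofHom S.d₃) (ModuleCat.ofHom S.onto₂)
    (ModuleCat.hom_ext (LinearMap.ext fun x =>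
      Subtype.ext (LinearMap.mem_ker.1 (S.ex₂.le (LinearMap.mem_range_self S.d₃ x)))))
  h₁ :=
    { exact := (ShortComplex.moduleCat_exact_iff _).2 fun x hx => ⟨⟨x, hx⟩, rfl⟩
      mono_f := (ModuleCat.mono_iff_injective _).2 Subtype.val_injective
      epi_g := (ModuleCat.epi_iff_surjective _).2 S.surj }
  h₂ :=
    { exact := (ShortComplex.moduleCat_exact_iff _).2 fun x hx =>
        ⟨⟨x, congrArg Subtype.val hx⟩, rfl⟩
      mono_f := (ModuleCat.mono_iff_injective _).2 Subtype.val_injective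
      epi_g := (ModuleCat.epi_iff_surjective _).2 fun y => by
        obtain ⟨x, hx⟩ := S.ex₀.ge y.2
        exact ⟨x, Subtype.ext hx⟩ }
  h₃ :=
    { exact := (ShortComplex.moduleCat_exact_iff _).2 fun x hx =>
        S.ex₂.ge (congrArg Subtype.val hx)
      mono_f := (ModuleCat.mono_iff_injective _).2 S.inj
      epi_g := (ModuleCat.epi_iff_surjective _).2 fun y => by
        obtain ⟨x, hx⟩ := S.ex₁.ge y.2
        exact ⟨x, Subtype.ext hx⟩ }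
  top := rfl
  link₁ := rfl
  link₂ := rfl
  proj₀ := (IsProjective.iff_projective S.Q₀).1 S.proj₀
  proj₁ := (IsProjective.iff_projective S.Q₁).1 S.proj₁
  proj₂ := (IsProjective.iff_projective S.Q₂).1 S.proj₂
  proj₃ := (IsProjective.iff_projective S.Q₃).1 S.proj₃

theorem res_d₁ : S.res.d₁ = ModuleCat.ofHom S.d₁ :=
  ModuleCat.hom_ext (LinearMap.ext fun _ => rfl)

theorem res_d₂ : S.res.d₂ = ModuleCat.ofHom S.d₂ :=
  ModuleCat.hom_ext (LinearMap.ext fun _ => rfl)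

theorem res_d₃ : S.res.d₃ = ModuleCat.ofHom S.d₃ := rfl

/-- Exactness of the cochains below the top, for linear maps. -/
theorem lowExact
    (h₀ : ∀ a : S.Q₀ →ₗ[A] X, a ∘ₗ S.d₁ = 0 → a = 0)
    (h₁ : ∀ b : S.Q₁ →ₗ[A] X, b ∘ₗ S.d₂ = 0 → ∃ a : S.Q₀ →ₗ[A] X, a ∘ₗ S.d₁ = b)
    (h₂ : ∀ c : S.Q₂ →ₗ[A] X, c ∘ₗ S.d₃ = 0 → ∃ b : S.Q₁ →ₗ[A] X, b ∘ₗ S.d₂ = c) :
    S.res.LowExact X where
  deg₀ a ha := by
    rw [res_d₁] at ha
    exact ModuleCat.hom_ext (h₀ a.hom (congrArg ModuleCat.Hom.hom ha))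
  deg₁ b hb := by
    rw [res_d₂] at hb
    obtain ⟨a, ha⟩ := h₁ b.hom (congrArg ModuleCat.Hom.hom hb)
    exact ⟨ModuleCat.ofHom a, by rw [res_d₁]; exact ModuleCat.hom_ext ha⟩
  deg₂ c hc := by
    rw [res_d₃] at hc
    obtain ⟨b, hb⟩ := h₂ c.hom (congrArg ModuleCat.Hom.hom hc)
    exact ⟨ModuleCat.ofHom b, by rw [res_d₂]; exact ModuleCat.hom_ext hb⟩

/-- Coboundaries in the top degree, for linear maps. -/
theorem exists_d₃_iff (φ : S.res.Q₃ ⟶ X) :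
    (∃ c, S.res.d₃ ≫ c = φ) ↔ ∃ c : S.Q₂ →ₗ[A] X, c ∘ₗ S.d₃ = φ.hom := by
  constructor
  · rintro ⟨c, rfl⟩
    exact ⟨c.hom, rfl⟩
  · rintro ⟨c, hc⟩
    exact ⟨ModuleCat.ofHom c, ModuleCat.hom_ext hc⟩

variable (T : Seq N)

/-- A chain map between two exact sequences lying over `u`. -/
structure Hom (u : N ⟶ M) where
  m₀ : T.Q₀ →ₗ[A] S.Q₀
  m₁ : T.Q₁ →ₗ[A] S.Q₁
  m₂ : T.Q₂ →ₗ[A] S.Q₂
  m₃ : T.Q₃ →ₗ[A] S.Q₃
  sq₀ : S.d₀ ∘ₗ m₀ = u.hom ∘ₗ T.d₀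
  sq₁ : S.d₁ ∘ₗ m₁ = m₀ ∘ₗ T.d₁
  sq₂ : S.d₂ ∘ₗ m₂ = m₁ ∘ₗ T.d₂
  sq₃ : S.d₃ ∘ₗ m₃ = m₂ ∘ₗ T.d₃

variable {S T}

/-- The induced map of first kernels. -/
def Hom.k₁ {u : N ⟶ M} (F : S.Hom T u) : LinearMap.ker T.d₀ →ₗ[A] LinearMap.ker S.d₀ :=
  (F.m₀ ∘ₗ (LinearMap.ker T.d₀).subtype).codRestrict _ fun x =>
    LinearMap.mem_ker.2 ((LinearMap.congr_fun F.sq₀ x.1).trans
      ((congrArg u.hom x.2).trans (map_zero _)))

/-- The induced map of second kernels. -/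
def Hom.k₂ {u : N ⟶ M} (F : S.Hom T u) : LinearMap.ker T.d₁ →ₗ[A] LinearMap.ker S.d₁ :=
  (F.m₁ ∘ₗ (LinearMap.ker T.d₁).subtype).codRestrict _ fun x =>
    LinearMap.mem_ker.2 ((LinearMap.congr_fun F.sq₁ x.1).trans
      ((congrArg F.m₀ x.2).trans (map_zero _)))

/-- A chain map of exact sequences as a chain map of resolutions. -/
def Hom.lift {u : N ⟶ M} (F : S.Hom T u) : S.res.Lift T.res u where
  m₁ :=
    { τ₁ := ModuleCat.ofHom F.k₁
      τ₂ := ModuleCat.ofHom F.m₀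
      τ₃ := u
      comm₁₂ := ModuleCat.hom_ext (LinearMap.ext fun _ => rfl)
      comm₂₃ := ModuleCat.hom_ext F.sq₀ }
  m₂ :=
    { τ₁ := ModuleCat.ofHom F.k₂
      τ₂ := ModuleCat.ofHom F.m₁
      τ₃ := ModuleCat.ofHom F.k₁
      comm₁₂ := ModuleCat.hom_ext (LinearMap.ext fun _ => rfl)
      comm₂₃ := ModuleCat.hom_ext (LinearMap.ext fun x =>
        Subtype.ext (LinearMap.congr_fun F.sq₁ x)) }
  m₃ :=
    { τ₁ := ModuleCat.ofHom F.m₃
      τ₂ := ModuleCat.ofHom F.m₂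
      τ₃ := ModuleCat.ofHom F.k₂
      comm₁₂ := ModuleCat.hom_ext F.sq₃
      comm₂₃ := ModuleCat.hom_ext (LinearMap.ext fun x =>
        Subtype.ext (LinearMap.congr_fun F.sq₂ x)) }
  lies := (Category.id_comp _).trans (Category.comp_id u)
  glue₁ := ModuleCat.hom_ext (LinearMap.ext fun _ => rfl)
  glue₂ := ModuleCat.hom_ext (LinearMap.ext fun _ => rfl)

theorem Hom.lift_top {u : N ⟶ M} (F : S.Hom T u) :
    F.lift.m₃.τ₁ = ModuleCat.ofHom F.m₃ := rfl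

end Seq

end Vale.Agent.P195.Orbit
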