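import Vale.Agent.P195.Orbit.Resolved
import Vale.Agent.P195.Producer

/-!
P195: self-extensions of the head of an orbit, from cochains.
-/

namespace Vale.Agent.P195.Orbit

open CategoryTheory Abelian

universe w v u

section General

variable {C : Type u} [Category.{v} C] [Abelian C] [HasExt.{w} C]

/-- Degree one and two vanishing from exactness of the cochains there. -/
theorem Res3.eq_zero_one_two {I X : C} (R : Res3 I)
    (d1 : ∀ b : R.Q₁ ⟶ X, R.d₂ ≫ b = 0 → ∃ a : R.Q₀ ⟶ X, R.d₁ ≫ a = b)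
    (d2 : ∀ c : R.Q₂ ⟶ X, R.d₃ ≫ c = 0 → ∃ b : R.Q₁ ⟶ X, R.d₂ ≫ b = c)
    (n : ℕ) (hn : n = 1 ∨ n = 2) (x : Ext I X n) : x = 0 := by
  have := R.proj₀
  have := R.proj₁
  have := R.proj₂
  have := R.h₁.epi_g
  have := R.h₂.epi_g
  have := R.h₃.epi_g
  obtain ⟨a, rfl⟩ := Res3.mk₀_eqToHom_surjective R.top.symm x
  suffices a = 0 by simp [this]
  rcases hn with rfl | rfl
  · obtain ⟨b, rfl⟩ := connecting_surjective R.h₁ 0 a
    obtain ⟨c, rfl⟩ := Res3.mk₀_eqToHom_surjective R.link₁ b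
    obtain ⟨q, rfl⟩ := (Ext.mk₀_bijective _ _).2 c
    obtain ⟨p, hp⟩ := d1 (R.S₂.g ≫ q) (by simp [Res3.d₂, reassoc_of% R.S₂.zero])
    rw [Ext.mk₀_comp_mk₀, connecting_eq_zero_iff R.h₁]
    refine ⟨p, ?_⟩
    rw [Res3.d₁, Category.assoc, Category.assoc] at hp
    rw [← (cancel_epi R.S₂.g).1 hp]
    simp
  · obtain ⟨b, rfl⟩ := connecting_surjective R.h₁ 1 a
    obtain ⟨c, rfl⟩ := Res3.mk₀_eqToHom_surjective R.link₁ b
    obtain ⟨d, rfl⟩ := connecting_surjective R.h₂ 0 c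
    obtain ⟨e, rfl⟩ := Res3.mk₀_eqToHom_surjective R.link₂ d
    obtain ⟨r, rfl⟩ := (Ext.mk₀_bijective _ _).2 e
    obtain ⟨q, hq⟩ := d2 (R.S₃.g ≫ r) (by simp [Res3.d₃, reassoc_of% R.S₃.zero])
    suffices R.h₂.extClass.comp ((Ext.mk₀ (eqToHom R.link₂)).comp (Ext.mk₀ r) (zero_add 0))
        (add_zero 1) = 0 by simp only [this, Ext.comp_zero]
    rw [Ext.mk₀_comp_mk₀, connecting_eq_zero_iff R.h₂]
    refine ⟨q, ?_⟩
    rw [Res3.d₂, Category.assoc, Category.assoc] at hq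
    rw [← (cancel_epi R.S₃.g).1 hq]
    simp

/-- The top class is natural in the target. -/
theorem Res3.cls_comp {I X Y : C} (R : Res3 I) (φ : R.Q₃ ⟶ X) (h : X ⟶ Y) :
    (R.cls φ).comp (Ext.mk₀ h) (add_zero 3) = R.cls (φ ≫ h) := by
  simp only [Res3.cls, ← Ext.mk₀_comp_mk₀, Ext.comp_assoc_of_third_deg_zero]

variable {V I : ℕ → C} {f : ∀ j, V (j + 1) ⟶ I j} {g : ∀ j, I j ⟶ V j}

/-- If the tail of the orbit has exact cochains in every degree, nothing extends `V 1` by `X`. -/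
theorem eq_zero_tail (zero : ∀ j, f j ≫ g j = 0)
    (exact : ∀ j, (ShortComplex.mk _ _ (zero j)).ShortExact) (R : ∀ j, Res3 (I (j + 1))) {X : C}
    (low : ∀ j, (R j).LowExact X)
    (top : ∀ j, ∀ φ : (R j).Q₃ ⟶ X, ∃ c, (R j).d₃ ≫ c = φ)
    (n : ℕ) (x : Ext (V 1) X n) : x = 0 := by
  have other : ∀ m j, ∀ y : Ext (I (j + 1)) X m, y = 0 := by
    intro m j y
    rcases Nat.lt_trichotomy m 3 with h | rfl | h
    · exact (R j).eq_zero_low (low j) m (by omega) y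
    · obtain ⟨φ, rfl⟩ := (R j).cls_surjective y
      exact ((R j).cls_eq_zero_iff φ).2 (top j φ)
    · obtain ⟨k, rfl⟩ : ∃ k, m = k + 4 := ⟨m - 4, by omega⟩
      exact (R j).eq_zero_high k y
  exact eq_zero (V := fun j => V (j + 1)) (I := fun j => I (j + 1)) (f := fun j => f (j + 1))
    (g := fun j => g (j + 1)) (fun j => zero (j + 1)) (fun j => exact (j + 1))
    (fun m j y _ => ⟨0, by rw [other m (j + 1) y, step]; exact Ext.comp_zero _ _ _ _ _⟩)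
    (fun m y _ => other m 0 y) n x

/-- Inflation from `V 0` to `I 0` is bijective when nothing extends `V 1`. -/
theorem inflate_bijective (zero : ∀ j, f j ≫ g j = 0)
    (exact : ∀ j, (ShortComplex.mk _ _ (zero j)).ShortExact) {X : C}
    (h : ∀ n, ∀ x : Ext (V 1) X n, x = 0) (n : ℕ) :
    Function.Bijective
      (fun x : Ext (V 0) X n => (Ext.mk₀ (g 0)).comp x (zero_add n)) := by
  constructor
  · intro x x' hx
    refine sub_eq_zero.1 ?_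
    have h0 : (Ext.mk₀ (g 0)).comp (x - x') (zero_add n) = 0 := by
      simp only [sub_eq_add_neg, Ext.comp_add, Ext.comp_neg]
      exact sub_eq_zero.2 hx |> fun h => by rwa [sub_eq_add_neg] at h
    cases n with
    | zero =>
      obtain ⟨p, hp⟩ := (Ext.mk₀_bijective _ _).2 (x - x')
      rw [← hp, Ext.mk₀_comp_mk₀, Ext.mk₀_eq_zero_iff] at h0
      have : Epi (g 0) := (exact 0).epi_g
      rw [← hp, Ext.mk₀_eq_zero_iff, ← cancel_epi (g 0), h0, Limits.comp_zero]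
    | succ m =>
      obtain ⟨z, hz⟩ := Ext.contravariant_sequence_exact₃ (exact 0) X (x - x') h0 (n₀ := m)
        (by omega)
      rw [← hz, h m z, Ext.comp_zero]
  · intro y
    obtain ⟨x, hx⟩ := Ext.contravariant_sequence_exact₂ (exact 0) X y (h n _)
    exact ⟨x, hx⟩

end General

section Module

variable {k A : Type} [Field k] [Ring A] [Algebra k A]

attribute [local instance] ModuleCat.moduleOfAlgebraModule
  ModuleCat.isScalarTower_of_algebra_moduleCat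

theorem scalarEnd_eq_smul (V : ModuleCat.{0} A) (c : k) : scalarEnd V c = c • 𝟙 V :=
  ModuleCat.hom_ext (LinearMap.ext fun m => by
    rw [scalarEnd_apply]
    rfl)

/-- Self-extensions of the head of the orbit, in the form that the producer consumes. -/
theorem self_ext {V I : ℕ → ModuleCat.{0} A} {f : ∀ j, V (j + 1) ⟶ I j} {g : ∀ j, I j ⟶ V j}
    (zero : ∀ j, f j ≫ g j = 0) (exact : ∀ j, (ShortComplex.mk _ _ (zero j)).ShortExact)
    (R₀ : Res3 (I 0)) (R : ∀ j, Res3 (I (j + 1)))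
    (low : ∀ j, (R j).LowExact (V 0))
    (top : ∀ j, ∀ φ : (R j).Q₃ ⟶ V 0, ∃ c, (R j).d₃ ≫ c = φ)
    (deg₁ : ∀ b : R₀.Q₁ ⟶ V 0, R₀.d₂ ≫ b = 0 → ∃ a : R₀.Q₀ ⟶ V 0, R₀.d₁ ≫ a = b)
    (deg₂ : ∀ c : R₀.Q₂ ⟶ V 0, R₀.d₃ ≫ c = 0 → ∃ b : R₀.Q₁ ⟶ V 0, R₀.d₂ ≫ b = c)
    (φ₀ : R₀.Q₃ ⟶ V 0) (hφ₀ : ¬ ∃ c, R₀.d₃ ≫ c = φ₀)
    (hspan : ∀ φ : R₀.Q₃ ⟶ V 0, ∃ a : k, ∃ c, R₀.d₃ ≫ c = φ - φ₀ ≫ scalarEnd (V 0) a) :
    Subsingleton (Ext (V 0) (V 0) 1) ∧ Subsingleton (Ext (V 0) (V 0) 2) ∧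
      (∀ n, 4 ≤ n → Subsingleton (Ext (V 0) (V 0) n)) ∧
      ∃ γ : Ext (V 0) (V 0) 3, γ ≠ 0 ∧
        ∀ x : Ext (V 0) (V 0) 3, ∃ c : k,
          (Ext.mk₀ (scalarEnd (V 0) c)).comp γ (zero_add 3) = x := by
  have hbij := inflate_bijective zero exact (eq_zero_tail zero exact R low top (X := V 0))
  have sub : ∀ n, (∀ y : Ext (I 0) (V 0) n, y = 0) → Subsingleton (Ext (V 0) (V 0) n) :=
    fun n hn => ⟨fun x x' => (hbij n).1 ((hn _).trans (hn _).symm)⟩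
  refine ⟨sub 1 (R₀.eq_zero_one_two deg₁ deg₂ 1 (Or.inl rfl)),
    sub 2 (R₀.eq_zero_one_two deg₁ deg₂ 2 (Or.inr rfl)), fun n hn => sub n fun y => ?_, ?_⟩
  · obtain ⟨i, rfl⟩ : ∃ i, n = i + 4 := ⟨n - 4, by omega⟩
    exact R₀.eq_zero_high i y
  · obtain ⟨γ, hγ⟩ := (hbij 3).2 (R₀.cls φ₀)
    refine ⟨γ, fun h => hφ₀ ((R₀.cls_eq_zero_iff φ₀).1 (by simp [← hγ, h])), fun x => ?_⟩
    obtain ⟨φ, hφ⟩ := R₀.cls_surjective ((Ext.mk₀ (g 0)).comp x (zero_add 3))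
    obtain ⟨a, hc⟩ := hspan φ
    refine ⟨a, (hbij 3).1 ?_⟩
    have h0 := (R₀.cls_eq_zero_iff _).2 hc
    rw [Res3.cls_sub, sub_eq_zero, ← R₀.cls_comp] at h0
    show (Ext.mk₀ (g 0)).comp _ _ = (Ext.mk₀ (g 0)).comp x _
    change (Ext.mk₀ (g 0)).comp γ (zero_add 3) = _ at hγ
    rw [← hφ, h0, ← hγ, scalarEnd_eq_smul, Ext.mk₀_smul, Ext.smul_comp, Ext.mk₀_id_comp,
      Ext.comp_smul, Ext.comp_smul, Ext.comp_mk₀_id]

end Module

end Vale.Agent.P195.Orbit
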