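import Mathlib.Data.Complex.Basic
import Vale.Agent.P195.Orbit.Self

/-!
P195: the frozen statement from cochain data along an orbit.
-/

namespace Vale.Agent.P195.Orbit

open CategoryTheory Abelian

attribute [local instance] ModuleCat.moduleOfAlgebraModule
  ModuleCat.isScalarTower_of_algebra_moduleCat

/-- The counterexample from cochain data.  Only statements about maps of `A`-modules remain. -/
theorem counterexample_of_orbit {A : Type} [Ring A] [Algebra ℂ A] [Module.Finite ℂ A]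
    {V I : ℕ → ModuleCat.{0} A} {f : ∀ j, V (j + 1) ⟶ I j} {g : ∀ j, I j ⟶ V j}
    (zero : ∀ j, f j ≫ g j = 0) (exact : ∀ j, (ShortComplex.mk _ _ (zero j)).ShortExact)
    (R : ∀ j, Res3 (I j)) (L : ∀ j, (R j).Lift (R (j + 1)) (g (j + 1) ≫ f j))
    -- maps into the algebra
    (lowA : ∀ j, (R j).LowExact (ModuleCat.of A A))
    (kerA : ∀ j, ∀ φ : (R (j + 1)).Q₃ ⟶ ModuleCat.of A A,
      (∃ c, (R (j + 2)).d₃ ≫ c = (L (j + 1)).m₃.τ₁ ≫ φ) →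
      ∃ ψ : (R j).Q₃ ⟶ ModuleCat.of A A, ∃ c, (R (j + 1)).d₃ ≫ c = φ - (L j).m₃.τ₁ ≫ ψ)
    (firstA : ∀ φ : (R 0).Q₃ ⟶ ModuleCat.of A A,
      (∃ c, (R 1).d₃ ≫ c = (L 0).m₃.τ₁ ≫ φ) → ∃ c, (R 0).d₃ ≫ c = φ)
    -- maps into the head of the orbit
    (lowV : ∀ j, (R (j + 1)).LowExact (V 0))
    (topV : ∀ j, ∀ φ : (R (j + 1)).Q₃ ⟶ V 0, ∃ c, (R (j + 1)).d₃ ≫ c = φ)
    (deg₁ : ∀ b : (R 0).Q₁ ⟶ V 0, (R 0).d₂ ≫ b = 0 → ∃ a, (R 0).d₁ ≫ a = b)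
    (deg₂ : ∀ c : (R 0).Q₂ ⟶ V 0, (R 0).d₃ ≫ c = 0 → ∃ b, (R 0).d₂ ≫ b = c)
    (φ₀ : (R 0).Q₃ ⟶ V 0) (hφ₀ : ¬ ∃ c, (R 0).d₃ ≫ c = φ₀)
    (hspan : ∀ φ : (R 0).Q₃ ⟶ V 0,
      ∃ a : ℂ, ∃ c, (R 0).d₃ ≫ c = φ - φ₀ ≫ scalarEnd (V 0) a)
    -- the simple socle, of multiplicity one
    (e : A) (he : e * e = e) (p : V 0 →ₗ[ℂ] ℂ) (hp : ∀ m, p (e • m) = p m)
    (hsoc : ∀ m : V 0, m ≠ 0 → ∃ x : A, p (x • m) ≠ 0)
    (v : V 0) (hv : p v = 1) (hdim : ∀ m : V 0, e • m = p m • e • v)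
    -- the injective dimension
    (hW : ∀ X : ModuleCat.{0} A, Subsingleton (Ext X (V 0) 4)) :
    ∃ (R : Type) (_ : Ring R) (_ : Algebra ℂ R), Module.Finite ℂ R ∧
      ∃ M : ModuleCat.{0} R, Module.Finite R M ∧ ¬ Module.Projective R M ∧
        ∀ n : ℕ, 1 ≤ n → Subsingleton (Abelian.Ext M M n) ∧
          Subsingleton (Abelian.Ext M (ModuleCat.of R R) n) := by
  have hA : ∀ n, Subsingleton (Ext (V 0) (ModuleCat.of A A) n) := fun n =>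
    subsingleton_of_forall_eq 0 (eq_zero_of_cochains zero exact R L lowA kerA firstA n)
  obtain ⟨h1, h2, h4, γ, hγ, hspanγ⟩ :=
    self_ext zero exact (R 0) (fun j => R (j + 1)) lowV topV deg₁ deg₂ φ₀ hφ₀ hspan
  obtain ⟨T, _, _, hT, M, _, _, hM, hnp, hext⟩ :=
    counterexample_of_spherical (V 0) e he p hp hsoc v hv hdim hA h1 h2 h4 hW γ hγ hspanγ
  exact ⟨T, inferInstance, inferInstance, hT, ModuleCat.of T M, hM, hnp, hext⟩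

end Vale.Agent.P195.Orbit
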