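import Vale.Agent.P195.Orbit.Descent

/-!
P195: extensions of an object with a projective resolution of length three, the behaviour of the
top group under chain maps, and the orbit criterion stated on cochains only.
-/

namespace Vale.Agent.P195.Orbit

open CategoryTheory Abelian

universe w v u

variable {C : Type u} [Category.{v} C] [Abelian C] [HasExt.{w} C]

/-- A projective resolution of length three, cut into three short exact sequences. -/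
structure Res3 (I : C) where
  S₁ : ShortComplex C
  S₂ : ShortComplex C
  S₃ : ShortComplex C
  h₁ : S₁.ShortExact
  h₂ : S₂.ShortExact
  h₃ : S₃.ShortExact
  top : S₁.X₃ = I
  link₁ : S₁.X₁ = S₂.X₃
  link₂ : S₂.X₁ = S₃.X₃
  proj₀ : Projective S₁.X₂
  proj₁ : Projective S₂.X₂
  proj₂ : Projective S₃.X₂
  proj₃ : Projective S₃.X₁

variable {S : ShortComplex C} (hS : S.ShortExact) [Projective S.X₂] {X : C}

include hS in
theorem connecting_surjective (n : ℕ) (x : Ext S.X₃ X (n + 1)) :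
    ∃ y : Ext S.X₁ X n, hS.extClass.comp y (add_comm 1 n) = x :=
  Ext.contravariant_sequence_exact₃ hS X x (Ext.eq_zero_of_projective _) _

include hS in
theorem connecting_injective (n : ℕ) (x : Ext S.X₁ X (n + 1))
    (hx : hS.extClass.comp x (add_comm 1 (n + 1)) = 0) : x = 0 := by
  obtain ⟨y, rfl⟩ := Ext.contravariant_sequence_exact₁ hS X x (add_comm 1 (n + 1)) hx
  rw [Ext.eq_zero_of_projective y, Ext.comp_zero]

omit [Projective S.X₂] in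
include hS in
theorem connecting_eq_zero_iff (φ : S.X₁ ⟶ X) :
    hS.extClass.comp (Ext.mk₀ φ) (add_zero 1) = 0 ↔ ∃ ψ : S.X₂ ⟶ X, S.f ≫ ψ = φ := by
  constructor
  · intro h
    obtain ⟨y, hy⟩ := Ext.contravariant_sequence_exact₁ hS X (Ext.mk₀ φ) (add_zero 1) h
    obtain ⟨ψ, rfl⟩ := (Ext.mk₀_bijective _ _).2 y
    refine ⟨ψ, (Ext.mk₀_bijective _ _).1 ?_⟩
    rw [← Ext.mk₀_comp_mk₀]
    exact hy
  · rintro ⟨ψ, rfl⟩
    rw [← Ext.mk₀_comp_mk₀]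
    exact hS.extClass_comp_assoc (γ := Ext.mk₀ ψ) (h := add_zero 1)

namespace Res3

variable {I : C} (R : Res3 I)

/-- The object in degree zero. -/
abbrev Q₀ : C := R.S₁.X₂

/-- The object in degree one. -/
abbrev Q₁ : C := R.S₂.X₂

/-- The object in degree two. -/
abbrev Q₂ : C := R.S₃.X₂

/-- The object in degree three. -/
abbrev Q₃ : C := R.S₃.X₁

/-- The first differential. -/
def d₁ : R.Q₁ ⟶ R.Q₀ := R.S₂.g ≫ eqToHom R.link₁.symm ≫ R.S₁.f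

/-- The second differential. -/
def d₂ : R.Q₂ ⟶ R.Q₁ := R.S₃.g ≫ eqToHom R.link₂.symm ≫ R.S₂.f

/-- The third differential. -/
def d₃ : R.Q₃ ⟶ R.Q₂ := R.S₃.f

/-- The class in the top degree given by a map out of the last term. -/
noncomputable def cls (φ : R.Q₃ ⟶ X) : Ext I X 3 :=
  (Ext.mk₀ (eqToHom R.top.symm)).comp
    (R.h₁.extClass.comp
      ((Ext.mk₀ (eqToHom R.link₁)).comp
        (R.h₂.extClass.comp
          ((Ext.mk₀ (eqToHom R.link₂)).comp (R.h₃.extClass.comp (Ext.mk₀ φ) (add_zero 1))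
            (zero_add 1))
          (show 1 + 1 = 2 by rfl))
        (zero_add 2))
      (show 1 + 2 = 3 by rfl))
    (zero_add 3)

theorem mk₀_eqToHom_eq_zero {A B : C} (h : A = B) {n : ℕ} (x : Ext B X n)
    (hx : (Ext.mk₀ (eqToHom h)).comp x (zero_add n) = 0) : x = 0 := by
  subst h
  rwa [eqToHom_refl, Ext.mk₀_id_comp] at hx

theorem mk₀_eqToHom_surjective {A B : C} (h : A = B) {n : ℕ} (x : Ext A X n) :
    ∃ y : Ext B X n, (Ext.mk₀ (eqToHom h)).comp y (zero_add n) = x := by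
  subst h
  exact ⟨x, by rw [eqToHom_refl, Ext.mk₀_id_comp]⟩

theorem cls_sub (φ φ' : R.Q₃ ⟶ X) : R.cls (φ - φ') = R.cls φ - R.cls φ' := by
  simp [cls, sub_eq_add_neg, Ext.mk₀_add, Ext.mk₀_neg, Ext.comp_add, Ext.comp_neg]

theorem cls_surjective (x : Ext I X 3) : ∃ φ : R.Q₃ ⟶ X, R.cls φ = x := by
  have := R.proj₀
  have := R.proj₁
  have := R.proj₂
  obtain ⟨a, rfl⟩ := mk₀_eqToHom_surjective R.top.symm x
  obtain ⟨b, rfl⟩ := connecting_surjective R.h₁ 2 a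
  obtain ⟨c, rfl⟩ := mk₀_eqToHom_surjective R.link₁ b
  obtain ⟨d, rfl⟩ := connecting_surjective R.h₂ 1 c
  obtain ⟨e, rfl⟩ := mk₀_eqToHom_surjective R.link₂ d
  obtain ⟨f, rfl⟩ := connecting_surjective R.h₃ 0 e
  obtain ⟨φ, rfl⟩ := (Ext.mk₀_bijective _ _).2 f
  exact ⟨φ, rfl⟩

theorem cls_eq_zero_iff (φ : R.Q₃ ⟶ X) :
    R.cls φ = 0 ↔ ∃ ψ : R.Q₂ ⟶ X, R.d₃ ≫ ψ = φ := by
  have := R.proj₀
  have := R.proj₁
  have := R.proj₂
  refine Iff.trans ⟨fun h => ?_, fun h => ?_⟩ (connecting_eq_zero_iff R.h₃ φ)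
  · exact mk₀_eqToHom_eq_zero _ _ (connecting_injective R.h₂ 0 _
      (mk₀_eqToHom_eq_zero _ _ (connecting_injective R.h₁ 1 _ (mk₀_eqToHom_eq_zero _ _ h))))
  · simp [cls, h]

include R in
theorem eq_zero_high (n : ℕ) (x : Ext I X (n + 4)) : x = 0 := by
  have := R.proj₀
  have := R.proj₁
  have := R.proj₂
  have := R.proj₃
  obtain ⟨a, rfl⟩ := mk₀_eqToHom_surjective R.top.symm x
  obtain ⟨b, rfl⟩ := connecting_surjective R.h₁ (n + 3) a
  obtain ⟨c, rfl⟩ := mk₀_eqToHom_surjective R.link₁ b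
  obtain ⟨d, rfl⟩ := connecting_surjective R.h₂ (n + 2) c
  obtain ⟨e, rfl⟩ := mk₀_eqToHom_surjective R.link₂ d
  obtain ⟨f, rfl⟩ := connecting_surjective R.h₃ (n + 1) e
  rw [Ext.eq_zero_of_projective f]
  simp

/-- The cochains of maps into `X` are exact in degrees zero, one and two. -/
structure LowExact (X : C) : Prop where
  deg₀ : ∀ a : R.Q₀ ⟶ X, R.d₁ ≫ a = 0 → a = 0
  deg₁ : ∀ b : R.Q₁ ⟶ X, R.d₂ ≫ b = 0 → ∃ a : R.Q₀ ⟶ X, R.d₁ ≫ a = b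
  deg₂ : ∀ c : R.Q₂ ⟶ X, R.d₃ ≫ c = 0 → ∃ b : R.Q₁ ⟶ X, R.d₂ ≫ b = c

theorem eq_zero_low (h : R.LowExact X) (n : ℕ) (hn : n ≤ 2) (x : Ext I X n) : x = 0 := by
  have := R.proj₀
  have := R.proj₁
  have := R.proj₂
  have := R.h₁.epi_g
  have := R.h₂.epi_g
  have := R.h₃.epi_g
  obtain ⟨a, rfl⟩ := mk₀_eqToHom_surjective R.top.symm x
  suffices a = 0 by simp [this]
  match n, hn with
  | 0, _ =>
    obtain ⟨p, rfl⟩ := (Ext.mk₀_bijective _ _).2 a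
    have hp : R.S₁.g ≫ p = 0 := h.deg₀ _ (by
      simp [d₁, ← Category.assoc _ R.S₁.g])
    rw [Ext.mk₀_eq_zero_iff]
    exact (cancel_epi R.S₁.g).1 (by rw [hp, Limits.comp_zero])
  | 1, _ =>
    obtain ⟨b, rfl⟩ := connecting_surjective R.h₁ 0 a
    obtain ⟨c, rfl⟩ := mk₀_eqToHom_surjective R.link₁ b
    obtain ⟨q, rfl⟩ := (Ext.mk₀_bijective _ _).2 c
    obtain ⟨p, hp⟩ := h.deg₁ (R.S₂.g ≫ q) (by simp [d₂, reassoc_of% R.S₂.zero])
    rw [Ext.mk₀_comp_mk₀, connecting_eq_zero_iff R.h₁]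
    refine ⟨p, ?_⟩
    rw [d₁, Category.assoc, Category.assoc] at hp
    rw [← (cancel_epi R.S₂.g).1 hp]
    simp
  | 2, _ =>
    obtain ⟨b, rfl⟩ := connecting_surjective R.h₁ 1 a
    obtain ⟨c, rfl⟩ := mk₀_eqToHom_surjective R.link₁ b
    obtain ⟨d, rfl⟩ := connecting_surjective R.h₂ 0 c
    obtain ⟨e, rfl⟩ := mk₀_eqToHom_surjective R.link₂ d
    obtain ⟨r, rfl⟩ := (Ext.mk₀_bijective _ _).2 e
    obtain ⟨q, hq⟩ := h.deg₂ (R.S₃.g ≫ r) (by simp [d₃, reassoc_of% R.S₃.zero])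
    suffices R.h₂.extClass.comp ((Ext.mk₀ (eqToHom R.link₂)).comp (Ext.mk₀ r) (zero_add 0))
        (add_zero 1) = 0 by simp only [this, Ext.comp_zero]
    rw [Ext.mk₀_comp_mk₀, connecting_eq_zero_iff R.h₂]
    refine ⟨q, ?_⟩
    rw [d₂, Category.assoc, Category.assoc] at hq
    rw [← (cancel_epi R.S₃.g).1 hq]
    simp

variable {J : C} (T : Res3 J)

/-- A chain map between two resolutions lying over `u`. -/
structure Lift (u : J ⟶ I) where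
  m₁ : T.S₁ ⟶ R.S₁
  m₂ : T.S₂ ⟶ R.S₂
  m₃ : T.S₃ ⟶ R.S₃
  lies : eqToHom T.top.symm ≫ m₁.τ₃ ≫ eqToHom R.top = u
  glue₁ : m₁.τ₁ = eqToHom T.link₁ ≫ m₂.τ₃ ≫ eqToHom R.link₁.symm
  glue₂ : m₂.τ₁ = eqToHom T.link₂ ≫ m₃.τ₃ ≫ eqToHom R.link₂.symm

variable {R T}

theorem shift {A B A' B' : C} {n m : ℕ} (e : Ext A B 1) (e' : Ext A' B' 1) (a : A ⟶ A')
    (b : B ⟶ B') (sq : e.comp (Ext.mk₀ b) (add_zero 1) = (Ext.mk₀ a).comp e' (zero_add 1))
    (x : Ext B' X n) (h : 1 + n = m) :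
    (Ext.mk₀ a).comp (e'.comp x h) (zero_add m) =
      e.comp ((Ext.mk₀ b).comp x (zero_add n)) h := by
  rw [← Ext.comp_assoc (Ext.mk₀ a) e' x (zero_add 1) h (by omega), ← sq,
    Ext.comp_assoc e (Ext.mk₀ b) x (add_zero 1) (zero_add n) (by omega)]

theorem Lift.cls {u : J ⟶ I} (L : R.Lift T u) (φ : R.Q₃ ⟶ X) :
    (Ext.mk₀ u).comp (R.cls φ) (zero_add 3) = T.cls (L.m₃.τ₁ ≫ φ) := by
  unfold Res3.cls
  rw [← Ext.mk₀_comp_mk₀ L.m₃.τ₁ φ,
    ← shift _ _ _ _ (ShortComplex.ShortExact.extClass_naturality T.h₃ R.h₃ L.m₃)]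
  rw [Ext.mk₀_comp_mk₀_assoc (eqToHom T.link₂) L.m₃.τ₃]
  have h₂ : eqToHom T.link₂ ≫ L.m₃.τ₃ = L.m₂.τ₁ ≫ eqToHom R.link₂ := by simp [L.glue₂]
  rw [h₂, ← Ext.mk₀_comp_mk₀_assoc,
    ← shift _ _ _ _ (ShortComplex.ShortExact.extClass_naturality T.h₂ R.h₂ L.m₂),
    Ext.mk₀_comp_mk₀_assoc (eqToHom T.link₁) L.m₂.τ₃]
  have h₁ : eqToHom T.link₁ ≫ L.m₂.τ₃ = L.m₁.τ₁ ≫ eqToHom R.link₁ := by simp [L.glue₁]
  rw [h₁, ← Ext.mk₀_comp_mk₀_assoc,
    ← shift _ _ _ _ (ShortComplex.ShortExact.extClass_naturality T.h₁ R.h₁ L.m₁),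
    Ext.mk₀_comp_mk₀_assoc, Ext.mk₀_comp_mk₀_assoc]
  congr 2
  simp [← L.lies]

end Res3

/-- Orbit criterion on cochains: if every `I j` has a length three resolution with cochains exact
below the top degree, and the chain maps over the orbit steps satisfy the two top-degree
conditions, then nothing extends `V 0` by `X`. -/
theorem eq_zero_of_cochains {V I : ℕ → C} {f : ∀ j, V (j + 1) ⟶ I j} {g : ∀ j, I j ⟶ V j}
    (zero : ∀ j, f j ≫ g j = 0) (exact : ∀ j, (ShortComplex.mk _ _ (zero j)).ShortExact)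
    (R : ∀ j, Res3 (I j)) (L : ∀ j, (R j).Lift (R (j + 1)) (g (j + 1) ≫ f j))
    (low : ∀ j, (R j).LowExact X)
    (ker : ∀ j, ∀ φ : (R (j + 1)).Q₃ ⟶ X,
      (∃ c, (R (j + 2)).d₃ ≫ c = (L (j + 1)).m₃.τ₁ ≫ φ) →
      ∃ ψ : (R j).Q₃ ⟶ X, ∃ c, (R (j + 1)).d₃ ≫ c = φ - (L j).m₃.τ₁ ≫ ψ)
    (first : ∀ φ : (R 0).Q₃ ⟶ X, (∃ c, (R 1).d₃ ≫ c = (L 0).m₃.τ₁ ≫ φ) →
      ∃ c, (R 0).d₃ ≫ c = φ)
    (n : ℕ) (x : Ext (V 0) X n) : x = 0 := by
  have other : ∀ m, m ≠ 3 → ∀ j, ∀ y : Ext (I j) X m, y = 0 := by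
    intro m hm j y
    rcases Nat.lt_or_ge m 3 with h | h
    · exact (R j).eq_zero_low (low j) m (by omega) y
    · obtain ⟨k, rfl⟩ : ∃ k, m = k + 4 := ⟨m - 4, by omega⟩
      exact (R j).eq_zero_high k y
  refine eq_zero zero exact (fun m j y hy => ?_) (fun m y hy => ?_) n x
  · by_cases hm : m = 3
    · subst hm
      obtain ⟨φ, rfl⟩ := (R (j + 1)).cls_surjective y
      rw [step, (L (j + 1)).cls, Res3.cls_eq_zero_iff] at hy
      obtain ⟨ψ, hψ⟩ := ker j φ hy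
      refine ⟨(R j).cls ψ, ?_⟩
      rw [step, (L j).cls, eq_comm, ← sub_eq_zero, ← Res3.cls_sub, Res3.cls_eq_zero_iff]
      exact hψ
    · exact ⟨0, by rw [other m hm (j + 1) y, step]; exact Ext.comp_zero _ _ _ _ _⟩
  · by_cases hm : m = 3
    · subst hm
      obtain ⟨φ, rfl⟩ := (R 0).cls_surjective y
      rw [step, (L 0).cls, Res3.cls_eq_zero_iff] at hy
      exact (Res3.cls_eq_zero_iff _ _).2 (first φ hy)
    · exact other m hm 0 y

end Vale.Agent.P195.Orbit
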