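import Mathlib.Data.Complex.Basic
import Vale.Agent.P195.Orbit.Resolved
import Mathlib.Algebra.Module.LinearMap.Basic

/-!
P195: the top conditions of the orbit criterion from trace functionals.

`P j` reads the degree-zero part of a top cochain at `j`, `N j` the translation part at `j + 1`.
If the two together cut out the coboundaries, `P j` is onto and translation turns `P j` into a
nonzero multiple of `N j`, then translation is bijective on top cohomology in the sense needed.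
-/

namespace Vale.Agent.P195.Orbit

open CategoryTheory

variable {A : Type} [Ring A] {I : ℕ → ModuleCat.{0} A} {s : ∀ j, I (j + 1) ⟶ I j}
  {X : ModuleCat.{0} A} {D : ℕ → Type} [∀ j, AddCommGroup (D j)] [∀ j, Module ℂ (D j)]

/-- The top conditions from trace functionals. -/
theorem top_of_trace (R : ∀ j, Res3 (I j)) (L : ∀ j, (R j).Lift (R (j + 1)) (s j))
    (P : ∀ j, ((R j).Q₃ ⟶ X) →+ D j) (N : ∀ j, ((R (j + 1)).Q₃ ⟶ X) →+ D j)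
    (u : ℕ → ℂ) (hu : ∀ j, u j ≠ 0) (honto : ∀ j, Function.Surjective (P j))
    (hzero : ∀ φ, (∃ c, (R 0).d₃ ≫ c = φ) ↔ P 0 φ = 0)
    (hsucc : ∀ j φ, (∃ c, (R (j + 1)).d₃ ≫ c = φ) ↔ P (j + 1) φ = 0 ∧ N j φ = 0)
    (hP : ∀ j ψ, P (j + 1) ((L j).m₃.τ₁ ≫ ψ) = 0)
    (hN : ∀ j ψ, N j ((L j).m₃.τ₁ ≫ ψ) = u j • P j ψ) :
    (∀ j, ∀ φ : (R (j + 1)).Q₃ ⟶ X,
      (∃ c, (R (j + 2)).d₃ ≫ c = (L (j + 1)).m₃.τ₁ ≫ φ) →
      ∃ ψ : (R j).Q₃ ⟶ X, ∃ c, (R (j + 1)).d₃ ≫ c = φ - (L j).m₃.τ₁ ≫ ψ) ∧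
    (∀ φ : (R 0).Q₃ ⟶ X, (∃ c, (R 1).d₃ ≫ c = (L 0).m₃.τ₁ ≫ φ) →
      ∃ c, (R 0).d₃ ≫ c = φ) := by
  have kill : ∀ j φ, (∃ c, (R (j + 1)).d₃ ≫ c = (L j).m₃.τ₁ ≫ φ) → P j φ = 0 := by
    intro j φ h
    have h' := ((hsucc j _).mp h).2
    rw [hN, smul_eq_zero] at h'
    exact h'.resolve_left (hu j)
  refine ⟨fun j φ h => ?_, fun φ h => (hzero φ).mpr (kill 0 φ h)⟩
  obtain ⟨ψ, hψ⟩ := honto j ((u j)⁻¹ • N j φ)
  refine ⟨ψ, (hsucc j _).mpr ⟨?_, ?_⟩⟩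
  · rw [map_sub, hP, kill (j + 1) φ h, sub_zero]
  · rw [map_sub, hN, hψ, smul_inv_smul₀ (hu j), sub_self]

end Vale.Agent.P195.Orbit
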