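import Mathlib.Algebra.Category.ModuleCat.Ext.HasExt
import Mathlib.Algebra.Category.ModuleCat.Abelian
import Mathlib.Algebra.Category.ModuleCat.Projective
import Mathlib.Algebra.Category.ModuleCat.Algebra
import Mathlib.Algebra.Homology.DerivedCategory.Ext.EnoughProjectives
import Mathlib.Algebra.Homology.DerivedCategory.Ext.ExactSequences
import Mathlib.Algebra.Homology.DerivedCategory.Ext.Linear
import Mathlib.Algebra.Homology.ShortComplex.ModuleCat

/-!
P195: extensions along a translation orbit.

Given short exact sequences `0 → V (j+1) → I j → V j → 0` in an abelian category and a target `X`,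
the composites `step n j : Ext (I j) X n → Ext (I (j+1)) X n` (restrict to `V (j+1)`, then inflate)
control all `Ext (V j) X n`: if every `step` kills nothing outside the image of the previous one,
and the first `step` is injective, then every extension of `V 0` by `X` vanishes.
-/

namespace Vale.Agent.P195.Orbit

open CategoryTheory Abelian

universe w v u

variable {C : Type u} [Category.{v} C] [Abelian C] [HasExt.{w} C]
  {V I : ℕ → C} (f : ∀ j, V (j + 1) ⟶ I j) (g : ∀ j, I j ⟶ V j) (X : C)

/-- Restrict an extension of `I j` to `V (j+1)` and inflate it to `I (j+1)`. -/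
noncomputable def step {n : ℕ} (j : ℕ) (x : Ext (I j) X n) : Ext (I (j + 1)) X n :=
  (Ext.mk₀ (g (j + 1) ≫ f j)).comp x (zero_add n)

variable {f g X}

theorem step_eq {n : ℕ} (j : ℕ) (x : Ext (I j) X n) :
    step f g X j x = (Ext.mk₀ (g (j + 1))).comp ((Ext.mk₀ (f j)).comp x (zero_add n))
      (zero_add n) :=
  (Ext.mk₀_comp_mk₀_assoc _ _ _).symm

variable (zero : ∀ j, f j ≫ g j = 0) (exact : ∀ j, (ShortComplex.mk _ _ (zero j)).ShortExact)

include exact in
theorem step_inflate {n : ℕ} (j : ℕ) (x : Ext (V j) X n) :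
    step f g X j ((Ext.mk₀ (g j)).comp x (zero_add n)) = 0 := by
  have := exact j
  rw [step_eq, Ext.mk₀_comp_mk₀_assoc (f j) (g j), zero j, Ext.mk₀_zero, Ext.zero_comp,
    Ext.comp_zero]

include exact in
/-- Inflation from every member of the orbit is injective in every degree. -/
theorem inflate_injective
    (ker : ∀ n j, ∀ x : Ext (I (j + 1)) X n, step f g X (j + 1) x = 0 →
      ∃ y : Ext (I j) X n, step f g X j y = x) :
    ∀ n j, ∀ x : Ext (V j) X n, (Ext.mk₀ (g j)).comp x (zero_add n) = 0 → x = 0 := by
  intro n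
  induction n with
  | zero =>
    intro j x hx
    have := (exact j).epi_g
    obtain ⟨p, rfl⟩ := Ext.addEquiv₀.symm.surjective x
    change (Ext.mk₀ (g j)).comp (Ext.mk₀ p) _ = 0 at hx
    change Ext.mk₀ p = 0
    have this : Epi (g j) := this
    rw [Ext.mk₀_comp_mk₀, Ext.mk₀_eq_zero_iff] at hx
    rw [Ext.mk₀_eq_zero_iff, ← cancel_epi (g j), hx, Limits.comp_zero]
  | succ n ih =>
    intro j x hx
    obtain ⟨z, hz⟩ := Ext.contravariant_sequence_exact₃ (exact j) X x hx (n₀ := n) (by omega)
    obtain ⟨y, hy⟩ := ker n j _ (step_inflate zero exact (j + 1) z)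
    rw [step_eq] at hy
    have hz' : (Ext.mk₀ (f j)).comp y (zero_add n) = z :=
      sub_eq_zero.1 (ih (j + 1) _ (by rw [sub_eq_add_neg, Ext.comp_add, Ext.comp_neg, hy, ← sub_eq_add_neg, sub_self]))
    rw [← hz, ← hz']
    exact (exact j).extClass_comp_assoc (γ := y) (h := by omega)

include exact in
/-- If moreover the first step is injective, nothing extends `V 0` by `X`. -/
theorem eq_zero
    (ker : ∀ n j, ∀ x : Ext (I (j + 1)) X n, step f g X (j + 1) x = 0 →
      ∃ y : Ext (I j) X n, step f g X j y = x)
    (first : ∀ n, ∀ x : Ext (I 0) X n, step f g X 0 x = 0 → x = 0)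
    (n : ℕ) (x : Ext (V 0) X n) : x = 0 :=
  inflate_injective zero exact ker n 0 x (first n _ (step_inflate zero exact 0 x))

end Vale.Agent.P195.Orbit
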